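import Vale.Agent.P170.Defs
import Mathlib.Probability.HasLawExists
import Mathlib.Probability.UniformOn

/-!
Random `k`-SAT as in the problem text: independent random clauses on a probability space.
`PClause` and `Satisfiable` are those of `Vale.Agent.P170.Defs`.
-/

namespace Vale.Agent.P170W

open MeasureTheory ProbabilityTheory Filter Topology Vale.Agent.P170

/-- the sets of `k` of the `n` variables -/
abbrev KSet (k n : ℕ) : Type := {s : Finset (Fin n) // s.card = k}

theorem clause_proper {k n : ℕ} (s : KSet k n) (e : Fin n → Bool) :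
    (s.1.image fun x => (x, e x)).card = k ∧
      ((s.1.image fun x => (x, e x)).image Prod.fst).card = k := by
  constructor
  · rw [Finset.card_image_of_injective _ fun _ _ h => congrArg Prod.fst h, s.2]
  · rw [Finset.image_image]
    exact (congrArg Finset.card Finset.image_id).trans s.2

/-- the clause on the variables `s` whose literal at the variable `x` has the sign `e x` -/
def clause {k n : ℕ} (s : KSet k n) (e : Fin n → Bool) : PClause k n :=
  ⟨s.1.image fun x => (x, e x), clause_proper s e⟩

/-- the events determined by the value of `X` -/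
abbrev sig {Ω α : Type} (X : Ω → α) : MeasurableSpace Ω := MeasurableSpace.comap X ⊤

variable {Ω : Type} [MeasurableSpace Ω]

/-- `X` is a random variable which takes each value with probability `1 / N` -/
def Unif {α : Type} (P : Measure Ω) (X : Ω → α) (N : ℕ) : Prop :=
  ∀ c, MeasurableSet {ω | X ω = c} ∧ P.real {ω | X ω = c} = 1 / N

/-- `C 0, C 1, …` are independent, each uniform over the `2 ^ k * (n choose k)` proper clauses -/
structure IsClauses {k n : ℕ} (P : Measure Ω) (C : ℕ → Ω → PClause k n) : Prop where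
  prob : IsProbabilityMeasure P
  unif : ∀ i, Unif P (C i) (2 ^ k * n.choose k)
  indep : iIndep (fun i => sig (C i)) P

/-- uniform `k`-sets `S i` of variables and fair signs `e i x`, all independent -/
structure IsSetsSigns {k n : ℕ} (P : Measure Ω) (S : ℕ → Ω → KSet k n)
    (e : ℕ → Fin n → Ω → Bool) : Prop where
  prob : IsProbabilityMeasure P
  unif : ∀ i, Unif P (S i) (n.choose k)
  fair : ∀ i x, Unif P (e i x) 2
  indep : iIndep (Sum.elim (fun i => sig (S i)) fun p : ℕ × Fin n => sig (e p.1 p.2)) P

/-- the event that `F_{n,m}`, the conjunction of the first `m` clauses, is satisfiable -/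
def SatEvent {Ω : Type} {k n : ℕ} (C : ℕ → Ω → PClause k n) (m : ℕ) : Set Ω :=
  {ω | Satisfiable fun i : Fin m => C i ω}

/-- `α` is a limiting threshold; `p n m` is `P_{k,n}(m)`, `n ≥ k` -/
def IsThreshold {k : ℕ} (p : Set.Ici k → ℕ → ℝ) (α : ℝ) : Prop :=
  0 < α ∧
  (∀ c : ℝ, 0 ≤ c → c < α → Tendsto (fun n => p n ⌊c * n.1⌋₊) atTop (𝓝 1)) ∧
  (∀ c : ℝ, α < c → Tendsto (fun n => p n ⌊c * n.1⌋₊) atTop (𝓝 0))

/-- `r` is a sequence `r_k(n)` as in Friedgut's theorem -/
def IsFriedgut {k : ℕ} (p : Set.Ici k → ℕ → ℝ) (r : Set.Ici k → ℝ) : Prop :=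
  ∀ ε : ℝ, 0 < ε → Tendsto (fun n => p n ⌊(r n - ε) * n.1⌋₊) atTop (𝓝 1) ∧
    Tendsto (fun n => p n ⌊(r n + ε) * n.1⌋₊) atTop (𝓝 0)

end Vale.Agent.P170W
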