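import Vale.Agent.P170W16.Defs
import Vale.Agent.P170.H243.Main

namespace Vale.Agent.P170W

open MeasureTheory ProbabilityTheory Filter Topology Vale.Agent.P170
open scoped ENNReal

theorem pt_meas {Ω α : Type} (X : Ω → α) (c : α) : MeasurableSet[sig X] {ω | X ω = c} :=
  ⟨{c}, trivial, rfl⟩

theorem card_clause {k : ℕ} (hk : 1 ≤ k) (n : ℕ) :
    Fintype.card (PClause k n) = 2 ^ k * n.choose k := by
  obtain ⟨j, rfl⟩ : ∃ j, k = j + 1 := ⟨k - 1, by omega⟩
  exact w_card_PClause j n

variable {Ω : Type} [MeasurableSpace Ω] {P : Measure Ω} {k n : ℕ}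

theorem sat_eq (hk : 1 ≤ k) {C : ℕ → Ω → PClause k n} (h : IsClauses P C) (m : ℕ) :
    MeasurableSet (SatEvent C m) ∧ P.real (SatEvent C m) = satProb k n m := by
  classical
  have := h.prob
  let E : (Fin m → PClause k n) → Set Ω := fun F => ⋂ i : Fin m, {ω | C i ω = F i}
  have hE : ∀ F, MeasurableSet (E F) := fun F =>
    MeasurableSet.iInter fun i => (h.unif i (F i)).1
  have hU : SatEvent C m = ⋃ F ∈ Finset.univ.filter (Satisfiable (k := k) (n := n) (m := m)),
      E F := by
    ext ω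
    simp only [SatEvent, Set.mem_ofPred_eq, Finset.mem_filter, Finset.mem_univ, true_and,
      Set.mem_iUnion, E, Set.mem_iInter, exists_prop]
    constructor
    · exact fun hs => ⟨_, hs, fun _ => rfl⟩
    · rintro ⟨F, hF, hω⟩
      rwa [show (fun i : Fin m => C i ω) = F from funext hω]
  have hP : ∀ F, P.real (E F) = (1 / ((2 ^ k * n.choose k : ℕ) : ℝ)) ^ m := by
    intro F
    have h1 := (h.indep.precomp (g := fun i : Fin m => (i : ℕ)) Fin.val_injective).meas_iInter
      (s := fun i : Fin m => {ω | C i ω = F i}) fun i => pt_meas _ _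
    have h2 : P.real (E F) = ∏ i : Fin m, P.real {ω | C i ω = F i} := by
      simp only [Measure.real, E]
      rw [h1, ENNReal.toReal_prod]
    rw [h2, Finset.prod_congr rfl fun (i : Fin m) _ => (h.unif i (F i)).2, Finset.prod_const,
      Finset.card_univ, Fintype.card_fin]
  refine ⟨hU ▸ Finset.measurableSet_biUnion _ fun F _ => hE F, ?_⟩
  rw [hU, measureReal_biUnion_finset ?_ fun F _ => hE F]
  · rw [Finset.sum_congr rfl fun F _ => hP F, Finset.sum_const, nsmul_eq_mul, satProb,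
      Fintype.card_fun, Fintype.card_fin, card_clause hk, Fintype.card_subtype, one_div, inv_pow,
      div_eq_mul_inv, Nat.cast_pow]
  · intro F _ G _ hFG
    refine Set.disjoint_left.2 fun ω h1 h2 => hFG (funext fun i => ?_)
    exact (Set.mem_iInter.1 h1 i).symm.trans (Set.mem_iInter.1 h2 i)

theorem clause_surj (c : PClause k n) : ∃ s e, clause s e = c := by
  classical
  have hinj : Set.InjOn Prod.fst (c.1 : Set (Fin n × Bool)) :=
    Finset.card_image_iff.1 (c.2.2.trans c.2.1.symm)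
  refine ⟨⟨c.1.image Prod.fst, c.2.2⟩, fun x => decide ((x, true) ∈ c.1), Subtype.ext ?_⟩
  ext ⟨x, b⟩
  simp only [clause, Finset.mem_image, Prod.mk.injEq]
  constructor
  · rintro ⟨y, ⟨⟨z, b'⟩, hz, rfl⟩, rfl, rfl⟩
    by_cases ht : (z, true) ∈ c.1
    · simp [ht]
    · cases b'
      · simpa [ht] using hz
      · exact absurd hz ht
  · intro hx
    refine ⟨x, ⟨(x, b), hx, rfl⟩, rfl, ?_⟩
    cases b
    · refine decide_eq_false fun ht => ?_
      have := hinj hx ht rfl
      simp at this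
    · exact decide_eq_true hx

theorem clause_eq_iff (s s' : KSet k n) (e e' : Fin n → Bool) :
    clause s e = clause s' e' ↔ s = s' ∧ ∀ x ∈ s'.1, e x = e' x := by
  constructor
  · intro h
    have h1 : (s.1.image fun x => (x, e x)) = s'.1.image fun x => (x, e' x) := congrArg Subtype.val h
    have h2 : ∀ x ∈ s'.1, x ∈ s.1 ∧ e x = e' x := by
      intro x hx
      have : (x, e' x) ∈ s.1.image fun x => (x, e x) :=
        h1 ▸ Finset.mem_image_of_mem (fun x => (x, e' x)) hx
      obtain ⟨y, hy, hxy⟩ := Finset.mem_image.1 this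
      obtain ⟨rfl, h3⟩ := Prod.mk.inj hxy
      exact ⟨hy, h3⟩
    refine ⟨Subtype.ext (Finset.eq_of_subset_of_card_le (fun x hx => (h2 x hx).1) ?_).symm,
      fun x hx => (h2 x hx).2⟩
    rw [s.2, s'.2]
  · rintro ⟨rfl, h⟩
    exact Subtype.ext (Finset.image_congr fun x hx => Prod.ext rfl (h x hx))

theorem Unif.meas_eq [IsFiniteMeasure P] {α : Type} {X : Ω → α} {N : ℕ} (h : Unif P X N) (c : α) :
    P {ω | X ω = c} = ENNReal.ofReal (1 / N) := by
  rw [← (h c).2, Measure.real, ENNReal.ofReal_toReal (measure_ne_top _ _)]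

theorem sig_eq {Ω α : Type} [Finite α] (X : Ω → α) :
    sig X = MeasurableSpace.generateFrom (Set.range fun c => {ω | X ω = c}) := by
  refine le_antisymm ?_ (MeasurableSpace.generateFrom_le ?_)
  · rintro _ ⟨s, -, rfl⟩
    have : X ⁻¹' s = ⋃ c ∈ s, {ω | X ω = c} := by
      ext ω
      simp
    rw [this]
    exact MeasurableSet.biUnion (Set.to_countable s) fun c _ =>
      MeasurableSpace.measurableSet_generateFrom ⟨c, rfl⟩
  · rintro _ ⟨c, rfl⟩
    exact pt_meas X c

theorem isClauses_of {S : ℕ → Ω → KSet k n} {e : ℕ → Fin n → Ω → Bool} (h : IsSetsSigns P S e) :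
    IsClauses P fun i ω => clause (S i ω) fun x => e i x ω := by
  classical
  have := h.prob
  have key : ∀ (T : Finset ℕ) (c : ℕ → PClause k n),
      P (⋂ i ∈ T, {ω | (clause (S i ω) fun x => e i x ω) = c i}) =
        ∏ _i ∈ T, ENNReal.ofReal (1 / (n.choose k : ℕ)) * ENNReal.ofReal (1 / (2 : ℕ)) ^ k := by
    intro T c
    choose s e' hc using fun i => clause_surj (c i)
    have h1 := h.indep.meas_biInter
      (S := T.disjSum ((T ×ˢ Finset.univ).filter fun p : ℕ × Fin n => p.2 ∈ (s p.1).1))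
      (s := Sum.elim (fun i => {ω | S i ω = s i})
        fun p : ℕ × Fin n => {ω | e p.1 p.2 ω = e' p.1 p.2})
      (by rintro (i | p) _ <;> exact pt_meas _ _)
    have h2 : (⋂ i ∈ T, {ω | (clause (S i ω) fun x => e i x ω) = c i}) =
        ⋂ j ∈ T.disjSum ((T ×ˢ Finset.univ).filter fun p : ℕ × Fin n => p.2 ∈ (s p.1).1),
          Sum.elim (fun i => {ω | S i ω = s i})
            (fun p : ℕ × Fin n => {ω | e p.1 p.2 ω = e' p.1 p.2}) j := by
      ext ω
      simp only [Set.mem_iInter, Set.mem_ofPred_eq, ← hc, clause_eq_iff]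
      constructor
      · rintro H (i | p) hj
        · exact (H i (Finset.inl_mem_disjSum.1 hj)).1
        · obtain ⟨h3, h4⟩ := Finset.mem_filter.1 (Finset.inr_mem_disjSum.1 hj)
          exact (H p.1 (Finset.mem_product.1 h3).1).2 p.2 h4
      · intro H i hi
        exact ⟨H (.inl i) (Finset.inl_mem_disjSum.2 hi), fun x hx => H (.inr (i, x))
          (Finset.inr_mem_disjSum.2 (Finset.mem_filter.2
            ⟨Finset.mem_product.2 ⟨hi, Finset.mem_univ _⟩, hx⟩))⟩
    rw [h2, h1, Finset.prod_disjSum, Finset.prod_mul_distrib]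
    simp only [Sum.elim_inl, Sum.elim_inr]
    congr 1
    · exact Finset.prod_congr rfl fun i _ => (h.unif i).meas_eq _
    · rw [Finset.prod_congr rfl fun p _ => (h.fair p.1 p.2).meas_eq _, Finset.prod_filter,
        Finset.prod_product]
      refine Finset.prod_congr rfl fun i _ => ?_
      dsimp only
      rw [Finset.prod_ite_mem, Finset.univ_inter, Finset.prod_const, (s i).2]
  have one : ∀ i c, P {ω | (clause (S i ω) fun x => e i x ω) = c} =
      ENNReal.ofReal (1 / (n.choose k : ℕ)) * ENNReal.ofReal (1 / (2 : ℕ)) ^ k := by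
    intro i c
    simpa using key {i} fun _ => c
  have hm : ∀ i c, MeasurableSet {ω | (clause (S i ω) fun x => e i x ω) = c} := by
    intro i c
    obtain ⟨s, e', rfl⟩ := clause_surj c
    have : {ω | (clause (S i ω) fun x => e i x ω) = clause s e'} =
        {ω | S i ω = s} ∩ ⋂ x ∈ s.1, {ω | e i x ω = e' x} := by
      ext ω
      simp [clause_eq_iff]
    rw [this]
    exact (h.unif i s).1.inter (Finset.measurableSet_biInter _ fun x _ => (h.fair i x _).1)
  refine ⟨h.prob, fun i c => ⟨hm i c, ?_⟩, ?_⟩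
  · rw [Measure.real, one, ENNReal.toReal_mul, ENNReal.toReal_pow,
      ENNReal.toReal_ofReal (by positivity), ENNReal.toReal_ofReal (by positivity)]
    push_cast
    rw [one_div, one_div, one_div, inv_pow, mul_inv, mul_comm]
  · refine iIndepSets.iIndep (fun i => ?_)
      (fun i => Set.range fun c => {ω | (clause (S i ω) fun x => e i x ω) = c}) (fun i => ?_)
      (fun i => sig_eq _) ((iIndepSets_iff _ _).2 fun T f hf => ?_)
    · rw [sig_eq]
      exact MeasurableSpace.generateFrom_le (by rintro _ ⟨c, rfl⟩; exact hm i c)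
    · rintro _ ⟨c, rfl⟩ _ ⟨c', rfl⟩ ⟨ω, h1, h2⟩
      obtain rfl : c = c' := (Eq.symm h1).trans h2
      exact ⟨c, (Set.inter_self _).symm⟩
    · rcases T.eq_empty_or_nonempty with rfl | ⟨i₀, hi₀⟩
      · simp
      obtain ⟨c₀, -⟩ := hf i₀ hi₀
      have : ∀ i, ∃ c, i ∈ T → {ω | (clause (S i ω) fun x => e i x ω) = c} = f i := by
        intro i
        by_cases hi : i ∈ T
        · obtain ⟨c, hc⟩ := hf i hi
          exact ⟨c, fun _ => hc⟩
        · exact ⟨c₀, fun h => absurd h hi⟩
      choose c hc using this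
      rw [← Set.iInter₂_congr hc, key]
      exact Finset.prod_congr rfl fun i hi => by rw [← hc i hi, one]

theorem unif_of_law {α : Type} [Fintype α] {X : Ω → α} (hX : @Measurable Ω α _ ⊤ X)
    (h : @HasLaw Ω α _ ⊤ X (@uniformOn α ⊤ Set.univ) P) : Unif P X (Fintype.card α) := by
  letI : MeasurableSpace α := ⊤
  intro c
  refine ⟨hX (t := {c}) trivial, ?_⟩
  have h1 : P {ω | X ω = c} = uniformOn Set.univ {c} := by
    rw [← h.map_eq, Measure.map_apply hX trivial]
    rfl
  rw [Measure.real, h1, uniformOn_univ]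
  simp

theorem exists_setsSigns (hn : k ≤ n) : ∃ (Ω : Type) (_ : MeasurableSpace Ω) (P : Measure Ω)
    (S : ℕ → Ω → KSet k n) (e : ℕ → Fin n → Ω → Bool), IsSetsSigns P S e := by
  classical
  have hc : Fintype.card (KSet k n) = n.choose k := by
    rw [Fintype.card_finset_len, Fintype.card_fin]
  have : Nonempty (KSet k n) := Fintype.card_pos_iff.1 (hc ▸ Nat.choose_pos hn)
  obtain ⟨Ω, mΩ, P, X, hX, hl, hi, hP⟩ := exists_hasLaw_indepFun
    (ι := ℕ ⊕ ℕ × Fin n) (Sum.elim (fun _ => KSet k n) fun _ => Bool) (m𝓧 := fun _ => ⊤)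
    (fun j => @uniformOn _ ⊤ Set.univ) (hμ := by
      rintro (i | p)
      · exact @instIsProbabilityMeasure_uniformOn_univ (KSet k n) ⊤ _ _
      · exact @instIsProbabilityMeasure_uniformOn_univ Bool ⊤ _ _)
  refine ⟨Ω, mΩ, P, fun i => X (.inl i), fun i x => X (.inr (i, x)), hP, fun i => ?_,
    fun i x => ?_, ?_⟩
  · exact hc ▸ unif_of_law (α := KSet k n) (hX (.inl i)) (hl (.inl i))
  · exact unif_of_law (α := Bool) (hX (.inr (i, x))) (hl (.inr (i, x)))
  · convert hi.iIndep using 2 with j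
    rcases j with i | p <;> rfl

theorem friedgut_lt {p : Set.Ici k → ℕ → ℝ} (hp : ∀ n, Antitone (p n)) {r r' : Set.Ici k → ℝ}
    (h : IsFriedgut p r) (h' : IsFriedgut p r') {δ : ℝ} (hδ : 0 < δ) :
    ∀ᶠ n in atTop, r n < r' n + δ := by
  have h1 := (tendsto_order.1 (h (δ / 2) (half_pos hδ)).1).1 (1 / 2) (by norm_num)
  have h2 := (tendsto_order.1 (h' (δ / 2) (half_pos hδ)).2).2 (1 / 2) (by norm_num)
  filter_upwards [h1, h2] with n h1 h2
  by_contra hc
  have h3 : r' n + δ / 2 ≤ r n - δ / 2 := by linarith [not_lt.1 hc]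
  have h4 := hp n (Nat.floor_le_floor (mul_le_mul_of_nonneg_right h3 (Nat.cast_nonneg n.1)))
  linarith

theorem friedgut_const {p : Set.Ici k → ℕ → ℝ} {α : ℝ} (h : IsThreshold p α) :
    IsFriedgut p fun _ => α := by
  intro ε hε
  refine ⟨?_, h.2.2 _ (by linarith)⟩
  rcases le_or_gt 0 (α - ε) with h0 | h0
  · exact h.2.1 _ h0 (by linarith)
  · refine (h.2.1 0 le_rfl h.1).congr fun n => ?_
    rw [zero_mul, Nat.floor_zero, Nat.floor_of_nonpos
      (mul_nonpos_of_nonpos_of_nonneg h0.le (Nat.cast_nonneg _))]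

theorem main (k : ℕ) (hk : 3 ≤ k) :
    ∃ α : ℝ, ∀ (Ω : Set.Ici k → Type) [∀ n, MeasurableSpace (Ω n)] (P : ∀ n, Measure (Ω n))
      (C : ∀ n : Set.Ici k, ℕ → Ω n → PClause k n), (∀ n, IsClauses (P n) (C n)) →
      ∀ p : Set.Ici k → ℕ → ℝ, (∀ n m, p n m = (P n).real (SatEvent (C n) m)) →
      IsThreshold p α ∧ (∃ r, IsFriedgut p r) ∧ ∀ r, IsFriedgut p r → Tendsto r atTop (𝓝 α) := by
  obtain ⟨α, -, -, hα, -⟩ := w_main k hk
  refine ⟨α, fun Ω _ P C hC p hp => ?_⟩
  obtain rfl : p = fun n : Set.Ici k => satProb k n.1 :=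
    funext fun n => funext fun m => (hp n m).trans (sat_eq (by omega) (hC n) m).2
  have hT : IsThreshold (fun n : Set.Ici k => satProb k n.1) α :=
    ⟨hα.1, fun c h0 hc => tendsto_comp_val_Ici_atTop.2 (hα.2.1 c h0 hc),
      fun c hc => tendsto_comp_val_Ici_atTop.2 (hα.2.2 c hc)⟩
  have hF := friedgut_const hT
  have ha : ∀ n : Set.Ici k, Antitone (satProb k n.1) := fun n => satProb_antitone k n
  refine ⟨hT, ⟨_, hF⟩, fun r hr => tendsto_order.2 ⟨fun a ha' => ?_, fun a ha' => ?_⟩⟩
  · filter_upwards [friedgut_lt ha hF hr (sub_pos.2 ha')] with n hn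
    linarith
  · filter_upwards [friedgut_lt ha hr hF (sub_pos.2 ha')] with n hn
    linarith

end Vale.Agent.P170W
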